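import Crest.Agent.X212.Wrd81.Gau

/-! The first variation of the resolvent along a line of connections on a closed manifold. -/

set_option autoImplicit false
set_option linter.unusedSectionVars false
noncomputable section
open scoped Manifold ContDiff Topology InnerProductSpace
open MeasureTheory Set Function Filter

namespace Crest.Agent.X212.Sep31
open An Wrd81

variable {E : Type} [NormedAddCommGroup E] [NormedSpace ℝ E] [FiniteDimensional ℝ E]
  [MeasurableSpace E] [BorelSpace E]
  {HM : Type} [TopologicalSpace HM] {I : ModelWithCorners ℝ E HM} [I.Boundaryless]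
  {M : Type} [TopologicalSpace M] [ChartedSpace HM M] [IsManifold I ∞ M]
  [MeasurableSpace M] [T2Space M] [BorelSpace M] [SecondCountableTopology M] [CompactSpace M]
  {ι : Type} [Fintype ι]
  {V : Type} [NormedAddCommGroup V] [InnerProductSpace ℝ V] [FiniteDimensional ℝ V]
  {F : Fr I M ι} {A β : ι → M → V →L[ℝ] V} {u u' v w y z : M → V}

theorem hcs {N : Type} [Zero N] (u : M → N) : HasCompactSupport u := .of_compactSpace u

/-- the `L²` product -/
def ip (F : Fr I M ι) (u v : M → V) : ℝ := ∫ x, ⟪u x, v x⟫_ℝ ∂F.μ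

theorem integ (hu : Sm I u) (hv : Sm I v) : Integrable (fun x => ⟪u x, v x⟫_ℝ) F.μ :=
  F.integrable_inner hu.continuous (hcs u) hv.continuous

theorem ip_comm (u v : M → V) : ip F u v = ip F v u := by simp only [ip, real_inner_comm]

theorem ip_add (hu : Sm I u) (hv : Sm I v) (hw : Sm I w) :
    ip F u (fun x => v x + w x) = ip F u v + ip F u w := by
  simp only [ip, inner_add_right]
  exact integral_add (integ hu hv) (integ hu hw)

theorem ip_smul (s : ℝ) (u v : M → V) : ip F u (fun x => s • v x) = s * ip F u v := by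
  simp only [ip, real_inner_smul_right, integral_const_mul]

theorem ip_zero (h : ∀ x, ⟪u x, v x⟫_ℝ = 0) : ip F u v = 0 := by simp [ip, h]

theorem sm_cs (s : ℝ) (hu : Sm I u) : Sm I fun x => s • u x := sm_smul contMDiff_const hu

theorem sm_line (hu : Sm I u) (hv : Sm I v) (s : ℝ) : Sm I fun x => u x + s • v x :=
  hu.add (sm_cs s hv)

theorem ip_line (hu : Sm I u) (hv : Sm I v) (hw : Sm I w) (s : ℝ) :
    ip F u (fun x => v x + s • w x) = ip F u v + s * ip F u w := by
  rw [ip_add hu hv (sm_cs s hw), ip_smul]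

theorem sq0 {g : M → ℝ} (hg : Sm I g) (h : ∫ x, g x * g x ∂F.μ = 0) (x : M) : g x = 0 := by
  by_contra h0
  exact (Continuous.integral_pos_of_hasCompactSupport_nonneg_nonzero (x := x)
    (hg.continuous.mul hg.continuous) (hcs _) (fun y => mul_self_nonneg _)
    (mul_self_ne_zero.2 h0)).ne' h

theorem lap_res (h : RH F A) (hw : Sm I w) : lap1 F A (F.res A w) = w := by
  rw [lap1_eq]
  exact funext (h.isRes_tst hw (hcs w)).1.2.2

theorem ip_lap (h : RH F A) (hu : Sm I u) (hv : Sm I v) :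
    ip F (F.res A u) (lap1 F A v) = ip F u v := by
  rw [ip, ← ibp_lap1 F h.mc.sm h.mc.sk (Mp86.sm_res F A u) (hcs _) hv, lap_res h hu, ip]

theorem ip_res (h : RH F A) (hu : Sm I u) (hv : Sm I v) :
    ip F (F.res A u) v = ip F u (F.res A v) := by
  rw [← ip_lap h hu (Mp86.sm_res F A v), lap_res h hv]

/-- a family of sections sees a parallel sub-bundle through the resolvent -/
theorem peel (h : RH F A) {q : M → V →L[ℝ] V} (hq : Sm I q)
    (hp : ∀ a x, Wz78.nabE I F.e A a q x = 0) {𝒩 : Set (M → V)} (sm : ∀ n ∈ 𝒩, Sm I n)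
    (mul : ∀ f : M → ℝ, Sm I f → ∀ n ∈ 𝒩, (fun x => f x • n x) ∈ 𝒩)
    (sp : ∀ x v, (∀ n ∈ 𝒩, ⟪n x, v⟫_ℝ = 0) → q x v = 0) (hw : Sm I w)
    (h0 : ∀ n ∈ 𝒩, ip F (F.res A n) w = 0) (x : M) : q x (w x) = 0 := by
  have sr := Mp86.sm_res F A w
  have e : (fun x => q x (F.res A w x)) = 0 := funext fun x => sp x _ fun n hn => by
    have sg := sm_inner (sm n hn) sr
    refine sq0 (F := F) sg ?_ x
    have := h0 _ (mul _ sg n hn)
    rw [ip_res h (sm_smul sg (sm n hn)) hw] at this
    simpa only [ip, real_inner_smul_left] using this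
  have := Eqv71.itw_lap (Wz78.frm F) (.of_forall fun x => itw_of_nabE fun a => hp a x) (hq x)
    (fun a => h.mc.sm a x) (sr x) F.dv
  rw [← (h.isRes_tst hw (hcs w)).1.2.2 x, map_add, ← this, e, Mp86.lap_zero, add_zero]
  exact congrFun e x

/-- the line of connections -/
def As (A β : ι → M → V →L[ℝ] V) (s : ℝ) : ι → M → V →L[ℝ] V := fun a x => A a x + s • β a x

theorem As_zero : As A β 0 = A := by funext a x; simp [As]

/-- the linear term of the Laplacian -/
def R1 (F : Fr I M ι) (A β : ι → M → V →L[ℝ] V) (y : M → V) (x : M) : V :=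
  -∑ a, (cov F.toPre A a (fun z => β a z (y z)) x + β a x (cov F.toPre A a y x) +
    F.dv a x • β a x (y x))

/-- the quadratic term of the Laplacian -/
def R2 (β : ι → M → V →L[ℝ] V) (y : M → V) (x : M) : V := -∑ a, β a x (β a x (y x))

theorem D_const (a : ι) (s : ℝ) (x : M) : F.D a (fun _ => s) x = 0 := congrFun (Sob92.dv_const s) x

section
variable (hA : ∀ a, Sm I (A a)) (hβ : ∀ a, Sm I (β a)) (hy : Sm I y)
include hβ hy

theorem sm_R2 : Sm I (R2 β y) :=
  (contMDiff_finsetSum fun a _ => (hβ a).clm_apply ((hβ a).clm_apply hy)).neg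

theorem R1_smul {f : M → ℝ} (hf : Sm I f) (x : M) : R1 F A β (fun x => f x • y x) x =
    f x • R1 F A β y x - (2 : ℝ) • ∑ a, F.D a f x • β a x (y x) := by
  simp only [R1, map_smul, fun a => cov_smul F.toPre A hf ((hβ a).clm_apply hy) a,
    cov_smul F.toPre A hf hy, map_add, smul_neg, Finset.smul_sum, ← neg_add', ← Finset.sum_add_distrib,
    neg_inj]
  exact Finset.sum_congr rfl fun a _ => by module

include hA

theorem sm_R1 : Sm I (R1 F A β y) :=
  (contMDiff_finsetSum fun a _ => ((sm_cov _ hA ((hβ a).clm_apply hy) a).add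
    ((hβ a).clm_apply (sm_cov _ hA hy a))).add (sm_smul (F.dv_sm a) ((hβ a).clm_apply hy))).neg

theorem lap1_As (s : ℝ) : lap1 F (As A β s) y =
    fun x => (lap1 F A y x + s • R1 F A β y x) + s ^ 2 • R2 β y x := by
  have e : ∀ a (y : M → V), cov F.toPre (As A β s) a y =
      fun x => cov F.toPre A a y x + s • β a x (y x) := fun a y => funext fun x => by
    simp [cov, As, add_assoc]
  funext x
  have e2 : ∀ a, cov F.toPre A a (fun x => cov F.toPre A a y x + s • β a x (y x)) x =
      cov F.toPre A a (cov F.toPre A a y) x + s • cov F.toPre A a (fun z => β a z (y z)) x :=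
    fun a => by
      rw [cov_add F.toPre A (sm_cov _ hA hy a) (sm_cs s ((hβ a).clm_apply hy)),
        cov_smul F.toPre A contMDiff_const ((hβ a).clm_apply hy), D_const, zero_smul, zero_add]
  simp only [lap1, e, R1, R2, e2]
  simp only [map_add, map_smul, smul_neg, Finset.smul_sum, sub_eq_add_neg, add_assoc, ← neg_add,
    ← Finset.sum_add_distrib, add_right_inj, neg_inj]
  exact Finset.sum_congr rfl fun a _ => by module

theorem ip_As (hw : Sm I w) (s : ℝ) : ip F w (lap1 F (As A β s) y) =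
    ip F w (lap1 F A y) + s * ip F w (R1 F A β y) + s ^ 2 * ip F w (R2 β y) := by
  rw [lap1_As hA hβ hy, ip_line hw (sm_line (sm_lap1 F hA hy) (sm_R1 hA hβ hy) s) (sm_R2 hβ hy),
    ip_line hw (sm_lap1 F hA hy) (sm_R1 hA hβ hy)]

end

theorem hasDerivAt_mul {g : ℝ → ℝ} (h : ContinuousAt g 0) :
    HasDerivAt (fun s => s * g s) (g 0) 0 := by
  rw [hasDerivAt_iff_tendsto_slope_zero]
  refine (h.tendsto.mono_left nhdsWithin_le_nhds).congr' ?_
  filter_upwards [self_mem_nhdsWithin] with t (ht : t ≠ 0)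
  simp [ht]

/-- a line of connections with resolvents -/
structure Ln (F : Fr I M ι) (A β : ι → M → V →L[ℝ] V) : Prop where
  sm : ∀ a, Sm I (β a)
  rh : ∀ s, RH F (As A β s)

/-- the resolvent along the line, paired with `z` -/
def ψ (F : Fr I M ι) (A β : ι → M → V →L[ℝ] V) (u u' z : M → V) (s : ℝ) : ℝ :=
  ip F (F.res (As A β s) fun x => u x + s • u' x) z

theorem ψ_zero : ψ F A β u u' z 0 = ip F (F.res A u) z := by simp [ψ, As_zero]

namespace Ln
variable (h : Ln F A β)
include h

theorem rh0 : RH F A := As_zero (A := A) (β := β) ▸ h.rh 0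

theorem R1_symm (hw : Sm I w) (hy : Sm I y) : ip F w (R1 F A β y) = ip F y (R1 F A β w) := by
  have e : ∀ s, ip F w (lap1 F (As A β s) y) = ip F y (lap1 F (As A β s) w) := fun s => by
    rw [ip_comm y]
    exact (ibp_lap1 F (h.rh s).mc.sm (h.rh s).mc.sk hw (hcs w) hy).symm
  have e1 := e 1
  have e2 := e (-1)
  rw [ip_As h.rh0.mc.sm h.sm hy hw, ip_As h.rh0.mc.sm h.sm hw hy] at e1 e2
  linarith

variable (hu : Sm I u) (hu' : Sm I u')
include hu hu'

theorem bdd (hz : Sm I z) : IsBoundedUnder (· ≤ ·) (𝓝 0) (norm ∘ ψ F A β u u' z) := by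
  obtain ⟨C, hC⟩ := (isCompact_range hu.continuous).isBounded.exists_norm_le
  obtain ⟨C', hC'⟩ := (isCompact_range hu'.continuous).isBounded.exists_norm_le
  refine ⟨∫ x, (C + C') * ‖z x‖ ∂F.μ, ?_⟩
  rw [eventually_map]
  filter_upwards [Metric.closedBall_mem_nhds (0 : ℝ) one_pos] with s hs
  rw [mem_closedBall_zero_iff] at hs
  refine norm_integral_le_of_norm_le ((continuous_const.mul hz.continuous.norm
    ).integrable_of_hasCompactSupport (hcs _)) (.of_forall fun x => (norm_inner_le_norm _ _).trans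
    (mul_le_mul_of_nonneg_right (Mp86.norm_res_le (h.rh s).bmp (h.rh s).mc (fun y => ?_) x)
      (norm_nonneg _)))
  refine (norm_add_le _ _).trans (add_le_add (hC _ ⟨y, rfl⟩) ?_)
  rw [norm_smul]
  exact (mul_le_of_le_one_left (norm_nonneg _) hs).trans (hC' _ ⟨y, rfl⟩)

theorem ψ_lap (hy : Sm I y) : ψ F A β u u' (lap1 F A y) = fun s => ip F y u +
    s * (ip F y u' - ψ F A β u u' (R1 F A β y) s - s * ψ F A β u u' (R2 β y) s) := by
  funext s
  have := ip_As (F := F) h.rh0.mc.sm h.sm hy (Mp86.sm_res F (As A β s) fun x => u x + s • u' x) s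
  rw [ip_lap (h.rh s) (sm_line hu hu' s) hy, ip_comm, ip_line hy hu hu'] at this
  simp only [ψ]
  linarith

theorem tend (hz : Sm I z) : Tendsto (fun s => s * ψ F A β u u' z s) (𝓝 0) (𝓝 0) :=
  tendsto_id.zero_mul_isBoundedUnder_le (h.bdd hu hu' hz)

theorem cont (hz : Sm I z) : ContinuousAt (ψ F A β u u' z) 0 := by
  have hy := Mp86.sm_res F A z
  rw [← lap_res h.rh0 hz, h.ψ_lap hu hu' hy]
  have t1 := h.tend hu hu' (sm_R1 (F := F) h.rh0.mc.sm h.sm hy)
  have t2 := (tendsto_id (x := 𝓝 (0 : ℝ))).mul (h.tend hu hu' (sm_R2 h.sm hy))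
  have t3 := (((tendsto_id (x := 𝓝 (0 : ℝ))).mul_const (ip F (F.res A z) u')).sub t1).sub t2
  refine continuousAt_const.add ?_
  simpa [ContinuousAt, mul_sub] using t3

/-- **the first variation of the resolvent** -/
theorem deriv (hz : Sm I z) : HasDerivAt (ψ F A β u u' z)
    (ip F (F.res A z) u' - ip F (F.res A u) (R1 F A β (F.res A z))) 0 := by
  have hy := Mp86.sm_res F A z
  conv => enter [1]; rw [← lap_res h.rh0 hz, h.ψ_lap hu hu' hy]
  have := (hasDerivAt_mul (((continuousAt_const (y := ip F (F.res A z) u')).sub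
    (h.cont hu hu' (sm_R1 (F := F) h.rh0.mc.sm h.sm hy))).sub
    (continuousAt_id.mul (h.cont hu hu' (sm_R2 h.sm hy))))).const_add (ip F (F.res A z) u)
  simpa [ψ_zero] using this

end Ln

end Crest.Agent.X212.Sep31
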