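import Crest.Agent.X212.Sep31.Gen
import Crest.Agent.X212.Top68.Defs
import Crest.Agent.X212.Abel74.Red
import Crest.Agent.X212.Mod61.Hs

/-! The leaves `Sep1` and `Sep2` of `Top68`. -/

set_option autoImplicit false
set_option linter.unusedSectionVars false
noncomputable section
open scoped Manifold ContDiff Topology InnerProductSpace
open MeasureTheory Set Function Filter

namespace Crest.Agent.X212.Sep31
open An Wz78 Abel74 Top68
open Wrd81 (sm_inner sm_smul)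
open Eq82 (var)

variable {E : Type} [NormedAddCommGroup E] [NormedSpace ℝ E] [FiniteDimensional ℝ E]
  [MeasurableSpace E] [BorelSpace E]
  {HM : Type} [TopologicalSpace HM] {I : ModelWithCorners ℝ E HM} [I.Boundaryless]
  {M : Type} [TopologicalSpace M] [ChartedSpace HM M] [IsManifold I ∞ M]
  [MeasurableSpace M] [T2Space M] [BorelSpace M] [SecondCountableTopology M] [CompactSpace M]
  {ι : Type} [Fintype ι] {lam : Type} [Fintype lam]
  {B : Base M ι lam} {G : Geo I M ι lam} {c : Cfg M ι lam 0} {ξ : M → c.m.A}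
  {α : M → Fm ι c.m.A} {φ : M → c.m.V}

theorem re_hm {κ : Type} [Fintype κ] (F : Fr I M ι) (J : En κ) {u v : M → Eu κ} (hu : Sm I u)
    (hv : Sm I v) : (∫ x, hm J (u x) (v x) ∂F.μ).re = ip F u v := by
  have i : Integrable (fun x => hm J (u x) (v x)) F.μ :=
    ((integ hu hv).ofReal.add ((integ hu (J.contMDiff.comp hv)).neg.ofReal.mul_const
      Complex.I)).congr (.of_forall fun x => (Complex.mk_eq_add_mul_I _ _).symm)
  rw [← RCLike.re_to_complex, ← integral_re i]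
  rfl

theorem re_stat (S : Stat B G c α φ) {g : Sg M lam} (hg : g.OK G.F) {f : ℝ → ℝ} {d : ℝ}
    (e : ∀ s, ((var c α φ 0 s).sg G.F g).re = f s) (hd : HasDerivAt f d 0) : d = 0 := by
  have := Complex.reCLM.hasFDerivAt.comp_hasDerivAt 0 (S.st g hg)
  rw [← funext e] at hd
  exact (hd.unique this).trans (map_zero _)

theorem ok_nil (F : Fr I M ι) : SW.OK F [] := fun _ h => nomatch h

theorem hg_eq (x : M) : hg c.m x (ξ x) = hf c.m x (-ξ x) := (eq_sub_of_add_eq' (hf_add x _)).symm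

theorem sm_hg (h : TP B G c ξ) : Sm I fun x => hg c.m x (ξ x) :=
  h.ad.ok.sp.sub (h.sp.toRed.sm_hf h.ad.ok)

theorem quad (h : TP B G c ξ) (S : Stat B G c α φ) {σ : M → Eu lam} (hσ : Sm I σ) :
    ip G.F (fun x => c.m.j x (σ x) (φ x)) c.Φ = 0 := by
  have sΦ := h.ad.sm
  have sT := h.ad.ok.sj.clm_apply hσ
  have s1 := sT.clm_apply sΦ
  have s2 := sT.clm_apply S.sφ
  have e : ip G.F (fun x => c.m.j x (σ x) (c.Φ x)) φ = ip G.F (fun x => c.m.j x (σ x) (φ x)) c.Φ := by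
    rw [ip_comm _ c.Φ]
    simp only [ip, h.ad.ok.jsym _ _ _]
  have := re_stat S (g := ⟨σ, [], []⟩) ⟨hσ, hcs _, ok_nil _, ok_nil _⟩
    (f := fun t => ip G.F (fun x => c.m.j x (σ x) (c.Φ x)) c.Φ + t * (2 * ip G.F
      (fun x => c.m.j x (σ x) (φ x)) c.Φ + t * ip G.F (fun x => c.m.j x (σ x) (φ x)) φ))
    (fun t => by
      have s3 := sm_line sΦ S.sφ t
      refine (re_hm G.F c.m.J (sT.clm_apply s3) s3).trans ?_
      simp only [map_add, map_smul _ t]
      rw [ip_comm, ip_line s3 s1 s2, ip_comm, ip_comm fun x => c.Φ x + t • φ x,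
        ip_line s1 sΦ S.sφ, ip_line s2 sΦ S.sφ, e]
      ring)
    ((hasDerivAt_mul (by fun_prop)).const_add _)
  linarith

/-- **the normal part of the spinor is a gauge direction** -/
theorem sep1 (h : TP B G c ξ) : Sep1 B G c ξ := fun α φ S => by
  have H := h.ad.ok
  have sΦ := h.ad.sm
  have e : ∀ x s, ⟪c.m.j x s (φ x), c.Φ x⟫_ℝ = 0 := fun x s => by
    have sf := sm_inner ((H.sj.clm_apply (contMDiff_const (c := s))).clm_apply S.sφ) sΦ
    refine sq0 (F := G.F) sf ?_ x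
    simpa only [ip, map_smul, smul_apply, real_inner_smul_left] using
      quad h S (sm_smul sf (contMDiff_const (c := s)))
  choose η h1 h2 using fun x => (h.pt x).gauge (S.pφ x) (e x)
  have n0 : ∀ x, ⟪c.Φ x, c.Φ x⟫_ℝ ≠ 0 := fun x => inner_self_ne_zero.2 (h.ne x)
  have e2 : η = fun x => (16 / ⟪c.Φ x, c.Φ x⟫_ℝ) • c.m.q x (hg c.m x (ξ x) (φ x)) (c.Φ x) :=
    funext fun x => by
      rw [← h2, (h.pt x).q_gΦ (h1 x), smul_smul, div_mul_div_cancel₀ (n0 x)]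
      simp
  exact ⟨η, e2 ▸ sm_smul (contMDiff_const.div₀ (sm_inner sΦ sΦ) n0) fun x =>
    sa_q (Std94.sm_pg h.hB H) ((sm_hg h).clm_apply S.sφ x) (sΦ x), h1, h2⟩

variable (G c ξ) in
/-- fields of endomorphisms given by words without the resolvent -/
def Lw (T : M → En (Fin c.m.N)) : Prop :=
  Sm I T ∧ (∀ x v, hf c.m x (ξ x) (T x v) = T x (hf c.m x (ξ x) v)) ∧
    ∃ u : SW M, SW.OK G.F u ∧
      ∀ W Φ z, Cfg.sw (r := 0) ⟨c.m, W, Φ, z⟩ G.F u = fun x => T x (Φ x)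

variable {T : M → En (Fin c.m.N)}

theorem lw_one : Lw G c ξ fun _ => 1 :=
  ⟨contMDiff_const, fun _ _ => rfl, [], ok_nil _, fun _ _ _ => rfl⟩

theorem Lw.mul (k : Lw G c ξ T) {f : M → ℝ} (hf : Sm I f) : Lw G c ξ fun x => f x • T x :=
  let ⟨k1, k2, u, k3, k4⟩ := k
  ⟨sm_smul hf k1, fun x v => by simp only [smul_apply, map_smul, k2], .mul f :: u,
    List.forall_mem_cons.2 ⟨Sob92.Cb_of_compact hf, k3⟩, fun W Φ z =>
      congrArg (Cfg.lt (r := 0) ⟨c.m, W, Φ, z⟩ G.F (.mul f)) (k4 W Φ z)⟩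

theorem Lw.rho (k : Lw G c ξ T) (h : TP B G c ξ) (x : M) (a : ι) :
    ∃ T', Lw G c ξ T' ∧ T' x = c.m.ρ a x * T x := by
  obtain ⟨k1, k2, u, k3, k4⟩ := k
  obtain ⟨g, g1, g2⟩ := Wrd81.exists_tf_D G.F (univ_mem (f := 𝓝 x)) a
  refine ⟨fun x => (∑ a, G.F.D a g x • c.m.ρ a x) * T x, ⟨fun x => SA.mul (SA.sum _ fun a _ =>
    SA.smul (G.F.sm_D g1.sm a x) (h.ad.ok.sρ a x)) (k1 x), fun x v => ?_, .cl g :: u,
    List.forall_mem_cons.2 ⟨g1.cd G.F, k3⟩, fun W Φ z => ?_⟩, ?_⟩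
  · simp only [mul_apply_eq_comp, sum_apply, smul_apply, map_sum, map_smul, (h.pt x).hf_ρ, k2]
  · exact (congrArg (Cfg.lt (r := 0) ⟨c.m, W, Φ, z⟩ G.F (.cl g)) (k4 W Φ z)).trans
      (Wrd81.lt_cl _ _ _)
  · simp only [g2, h.hG.P, (h.ad.ok.cl x).proj]

theorem lw_pt (h : TP B G c ξ) (x : M) {P : c.m.V → Prop}
    (k : ∀ T, Lw G c ξ T → P (T x (c.Φ x))) :
    (∀ a, P (c.m.ρ a x (c.Φ x))) ∧ ∀ a b, P (c.m.ρ a x (c.m.ρ b x (c.Φ x))) := by
  refine ⟨fun a => ?_, fun a b => ?_⟩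
  · obtain ⟨T, h1, h2⟩ := lw_one.rho h x a
    simpa only [h2, mul_one] using k T h1
  · obtain ⟨T, h1, h2⟩ := lw_one.rho h x b
    obtain ⟨T', h3, h4⟩ := h1.rho h x a
    simpa only [h2, h4, mul_one, mul_apply_eq_comp] using k T' h3

theorem mem_α (S : Stat B G c α φ) (x : M) (a : ι) : α x a ∈ c.m.gS x := S.pα x ▸ p1_mem _ a

theorem proj_α (S : Stat B G c α φ) (x : M) (a : ι) : ∑ b, B.P a b x • α x b = α x a := by
  conv_rhs => rw [← S.pα x, Md.p1, idx_apply]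
  simp only [pg_of_mem (mem_α S x _)]

theorem var_W (s : ℝ) : (var c α φ 0 s).W = As c.W (fun a x => opL (α x a)) s := by
  funext a x
  simp [var, As, Md.addC]

theorem ln (h : TP B G c ξ) (S : Stat B G c α φ) : Ln G.F c.W fun a x => opL (α x a) := by
  refine ⟨fun a x => SA.clm opL (SA.comp (S.sα x) a), fun s => ?_⟩
  obtain ⟨C, hC⟩ := h.tame
  have k := Mod61.isConn_addC h.ad.ok h.ad.conn (β := fun x => s • α x)
    (fun a x => SA.comp (sm_cs s S.sα x) a) (fun x a => Submodule.smul_mem _ s (mem_α S x a))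
    fun x a => by simp only [PiLp.smul_apply, smul_comm _ s, ← Finset.smul_sum, proj_α S]
  rw [← var_W (φ := φ)]
  exact (Wrd81.rh_conn h.hG hC k fun a => Sob92.Cb_of_compact ((mcW k).sm a)).1

theorem key (h : TP B G c ξ) (S : Stat B G c α φ) (hφ : ∀ x, hf c.m x (ξ x) (φ x) = φ x)
    {T' : M → En (Fin c.m.N)} (k : Lw G c ξ T) (k' : Lw G c ξ T') {σ : M → Eu lam} (hσ : Sm I σ) :
    ip G.F (G.F.res c.W fun x => T x (c.Φ x)) (R1 G.F c.W (fun a x => opL (α x a))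
      (G.F.res c.W fun x => c.m.j x (σ x) (T' x (c.Φ x)))) = 0 := by
  obtain ⟨k1, k2, u, k3, k4⟩ := k
  obtain ⟨l1, l2, v, l3, l4⟩ := k'
  have H := h.ad.ok
  have L := ln h S
  have sj := H.sj.clm_apply hσ
  have s1 := k1.clm_apply h.ad.sm
  have s2 := k1.clm_apply S.sφ
  have s3 := sj.clm_apply (l1.clm_apply h.ad.sm)
  have s4 := sj.clm_apply (l1.clm_apply S.sφ)
  have := re_stat S (g := ⟨σ, .G :: u, v⟩) ⟨hσ, hcs _, List.forall_mem_cons.2 ⟨trivial, k3⟩, l3⟩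
    (fun t => by
      have e1 : (var c α φ 0 t).sw G.F (.G :: u) = G.F.res (As c.W (fun a x => opL (α x a)) t)
          fun x => T x (c.Φ x) + t • T x (φ x) := by
        refine (congrArg₂ (G.F.res (V := c.m.V)) (var_W t)
          (k4 _ (fun x => c.Φ x + t • φ x) _)).trans ?_
        simp only [map_add, map_smul]
      have e2 : (var c α φ 0 t).sw G.F v = fun x => T' x (c.Φ x + t • φ x) := l4 _ _ _
      have sr := Mp86.sm_res G.F (As c.W (fun a x => opL (α x a)) t)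
        fun x => T x (c.Φ x) + t • T x (φ x)
      rw [Cfg.sg, e1, e2]
      refine (re_hm G.F c.m.J (sj.clm_apply sr)
        (l1.clm_apply (sm_line h.ad.sm S.sφ t))).trans ?_
      refine Eq.trans ?_ (ip_line sr s3 s4 t)
      simp only [ip, H.jsym _ _ _, map_add, map_smul])
    ((L.deriv s1 s2 s3).add (hasDerivAt_mul (L.cont s1 s2 s4)))
  have b := L.rh0.bmp
  rw [ψ_zero, ip_comm, ip_zero fun x => (h.pt x).orth (by rw [k2, hφ]) (by
      rw [hg_eq]
      exact h.sp.toRed.neg.res_hf H h.ad.conn b (fun x => by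
        rw [← hg_eq, (h.pt x).hg_j, l2, (h.pt x).hfΦ]) x),
    ip_zero (v := fun x => c.m.j x (σ x) (T' x (φ x))) fun x => (h.pt x).orth
      (h.sp.toRed.res_hf H h.ad.conn b (fun x => by rw [k2, (h.pt x).hfΦ]) x)
      (by rw [(h.pt x).hg_j, l2, hφ])] at this
  linarith

/-- **the form is abelian if the spinor is** -/
theorem sep2 (h : TP B G c ξ) : Sep2 B G c ξ := fun α φ S hφ x a => by
  have H := h.ad.ok
  have L := ln h S
  have R := h.sp.toRed
  have sΦ := h.ad.sm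
  have kA : ∀ {T' : M → En (Fin c.m.N)} {σ : M → Eu lam}, Lw G c ξ T' → Sm I σ → ∀ x,
      hf c.m x (ξ x) (R1 G.F c.W (fun a x => opL (α x a))
        (G.F.res c.W fun x => c.m.j x (σ x) (T' x (c.Φ x))) x) = 0 := fun k' hσ =>
    peel L.rh0 (R.sm_hf H) (R.hf_par H h.ad.conn)
      (𝒩 := {n | ∃ T, Lw G c ξ T ∧ n = fun x => T x (c.Φ x)})
      (by rintro _ ⟨T, k, rfl⟩; exact k.1.clm_apply sΦ)
      (by rintro f hf _ ⟨T, k, rfl⟩; exact ⟨_, k.mul hf, rfl⟩)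
      (fun x v hv => by
        have p := h.pt x
        obtain ⟨e1, e2⟩ := lw_pt h x (P := fun w => ⟪w, v⟫_ℝ = 0) fun T k => hv _ ⟨T, k, rfl⟩
        exact p.span1 (p.hf_hf v) (fun a => by rw [← p.hf_s, p.hf_ρ, p.hfΦ, e1])
          fun a b => by rw [← p.hf_s, p.hf_ρ, p.hf_ρ, p.hfΦ, e2])
      (sm_R1 L.rh0.mc.sm L.sm (Mp86.sm_res _ _ _))
      (by rintro _ ⟨T, k, rfl⟩; exact key h S hφ k k' hσ)
  have kB : ∀ {w : M → c.m.V}, Sm I w → (∀ x, hf c.m x (ξ x) (w x) = w x) → ∀ x,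
      hf c.m x (-ξ x) (R1 G.F c.W (fun a x => opL (α x a)) w x) = 0 := fun hw pw =>
    peel L.rh0 (R.neg.sm_hf H) (R.neg.hf_par H h.ad.conn)
      (𝒩 := {n | ∃ T σ, Lw G c ξ T ∧ Sm I σ ∧ n = fun x => c.m.j x (σ x) (T x (c.Φ x))})
      (by rintro _ ⟨T, σ, k, hσ, rfl⟩; exact (H.sj.clm_apply hσ).clm_apply (k.1.clm_apply sΦ))
      (by rintro f hf _ ⟨T, σ, k, hσ, rfl⟩
          exact ⟨_, σ, k.mul hf, hσ, by simp only [smul_apply, map_smul]⟩)
      (fun x v hv => by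
        have p := h.pt x
        have e := fun s => lw_pt h x (P := fun w => ⟪c.m.j x s w, v⟫_ℝ = 0) fun T k =>
          hv _ ⟨T, fun _ => s, k, contMDiff_const, rfl⟩
        rw [← hg_eq]
        exact p.span2 (p.hg_hg v) (fun s a => by rw [← p.hg_s, p.hg_j, p.hf_ρ, p.hfΦ, (e s).1])
          fun s a b => by rw [← p.hg_s, p.hg_j, p.hf_ρ, p.hf_ρ, p.hfΦ, (e s).2])
      (sm_R1 L.rh0.mc.sm L.sm hw)
      (by
        rintro _ ⟨T, σ, k, hσ, rfl⟩
        rw [L.R1_symm (Mp86.sm_res _ _ _) hw]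
        exact ip_zero fun x => by rw [← pw, (h.pt x).hf_s, kA k hσ, inner_zero_right])
  obtain ⟨g, g1, g2⟩ := Wrd81.exists_tf_D G.F (univ_mem (f := 𝓝 x)) a
  have e := kB (sm_smul g1.sm sΦ) (fun x => by rw [map_smul, (h.pt x).hfΦ]) x
  rw [R1_smul L.sm sΦ g1.sm, map_sub, map_smul, kB sΦ fun x => (h.pt x).hfΦ, smul_zero, zero_sub,
    neg_eq_zero, map_smul, smul_eq_zero_iff_right two_ne_zero, ← hg_eq] at e
  refine (h.pt x).tang (mem_α S x a) ?_
  rw [← proj_α S x a]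
  simpa only [g2, h.hG.P, map_sum, map_smul, sum_apply, smul_apply] using e

end Crest.Agent.X212.Sep31
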